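import Vale.Agent.P166.Haar2.Paths.Basic

/-!
The energy functional as a function of the path and of the factor multiplying the atoms.
-/

noncomputable section

open MeasureTheory Set
open scoped BigOperators

namespace Vale.Agent.P166.Haar2.Paths

open Vale.Agent.P157.Parisi (IsPath weight Path)
open Vale.Agent.P157.Parisi.Full (excess)

variable {K : ℕ} (A : Atoms K)

lemma continuousOn_of_lip {f : ℝ → ℝ} {C : ℝ}
    (h : ∀ d ∈ Icc (0 : ℝ) 1, ∀ d' ∈ Icc (0 : ℝ) 1, |f d - f d'| ≤ C * |d - d'|) :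
    ContinuousOn f (Icc 0 1) := by
  refine (LipschitzOnWith.of_dist_le_mul (K := (max C 0).toNNReal) fun x hx y hy => ?_).continuousOn
  rw [Real.dist_eq, Real.dist_eq, Real.coe_toNNReal _ (le_max_right _ _)]
  exact (h x hx y hy).trans (mul_le_mul_of_nonneg_right (le_max_left _ _) (abs_nonneg _))

lemma intervalIntegrable_comp {f : ℝ → ℝ} (hf : ContinuousOn f (Icc 0 1)) {r : ℕ}
    {m : Fin r → ℝ} {q : Fin (r + 1) → ℝ} (h : IsPath m q) {s : ℝ} (hs : s ∈ Icc (0 : ℝ) 1) :
    IntervalIntegrable (fun u => f (s * dfun m q u)) volume 0 1 :=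
  (hf.comp (continuous_const.mul (continuous_dfun m q)).continuousOn fun _ hu =>
    unitInterval.mul_mem hs (dfun_mem h hu)).intervalIntegrable_of_Icc zero_le_one

variable {A}

lemma ctop_pos : 0 < A.ctop := A.pos _

lemma gapTop_nonneg (k : Fin (K + 1)) : 0 ≤ A.gapTop k :=
  sub_nonneg.2 (A.mono.monotone (Fin.le_last k))

lemma share_sum_pos {y : ℝ} (hy : 0 ≤ y) : 0 < ∑ k, A.share k y :=
  Finset.sum_pos (fun k _ => div_pos (A.pos k) (by
    nlinarith [ctop_pos (A := A), gapTop_nonneg (A := A) k])) Finset.univ_nonempty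

lemma share_scale {t : ℝ} (ht : 0 < t) (k : Fin (K + 1)) (y : ℝ) :
    (A.scale t ht).share k y = A.share k (t * y) := by
  simp only [Atoms.share, Atoms.scale, Atoms.ctop, Atoms.gapTop, Atoms.top]
  congr 1
  ring

lemma dshare_scale {t : ℝ} (ht : 0 < t) (k : Fin (K + 1)) (y : ℝ) :
    (A.scale t ht).dshare k y = A.dshare k (t * y) := by
  simp only [Atoms.dshare, Atoms.scale, Atoms.ctop, Atoms.gapTop, Atoms.top]
  congr 2
  ring

lemma rA_zero_eq (F : AtomFacts A) : A.rA 0 = A.dpsi 0 := by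
  have h0 : A.topOf 0 = 0 := le_antisymm (F.topOf_le 0 le_rfl) (F.topOf_nonneg 0)
  have hc := (ctop_pos (A := A)).ne'
  have e : ∀ j, A.c j * A.ctop / A.ctop ^ 2 = A.c j / A.ctop := fun j => by field_simp
  simp only [Atoms.rA, Atoms.dpsi, Atoms.dblockOf, Atoms.share, Atoms.dshare, h0, mul_zero,
    add_zero, e]
  rw [← Finset.sum_div, A.sum_one, Finset.sum_div]
  exact Finset.sum_congr rfl fun k _ => mul_div_assoc _ _ _

lemma sum_a_blockOf (F : AtomFacts A) {d : ℝ} (hd : 0 ≤ d) :
    ∑ k, A.a k * A.blockOf k d = d * A.rA d := by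
  have hy := F.topOf_nonneg d
  have hS := (share_sum_pos (A := A) hy).ne'
  have hd' : A.topOf d * ∑ k, A.share k (A.topOf d) = d := F.total_topOf d hd
  have e : d * A.rA d = A.topOf d * ∑ k, A.a k * A.share k (A.topOf d) := by
    conv_lhs => arg 1; rw [← hd']
    rw [Atoms.rA, mul_assoc, mul_div_cancel₀ _ hS]
  rw [e, Finset.mul_sum]
  refine Finset.sum_congr rfl fun k _ => ?_
  rw [Atoms.blockOf]
  ring

lemma topOf_scale (F : AtomFacts A) {t : ℝ} (ht : 0 < t) (G : AtomFacts (A.scale t ht)) {d : ℝ}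
    (hd : 0 ≤ d) : (A.scale t ht).topOf d = A.topOf (t * d) / t := by
  have h := G.topOf_total (A.topOf (t * d) / t) (div_nonneg (F.topOf_nonneg _) ht.le)
  have e : (A.scale t ht).total (A.topOf (t * d) / t) = d := by
    have h2 := F.total_topOf (t * d) (by positivity)
    simp only [Atoms.total, share_scale, mul_div_cancel₀ _ ht.ne'] at h2 ⊢
    rw [div_mul_eq_mul_div, h2, mul_div_cancel_left₀ _ ht.ne']
  rwa [e] at h

lemma rA_scale (F : AtomFacts A) {t : ℝ} (ht : 0 < t) (G : AtomFacts (A.scale t ht)) {d : ℝ}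
    (hd : 0 ≤ d) : (A.scale t ht).rA d = t * A.rA (t * d) := by
  simp only [Atoms.rA, share_scale, topOf_scale F ht G hd, mul_div_cancel₀ _ ht.ne']
  rw [← mul_div_assoc, Finset.mul_sum]
  simp only [Atoms.scale, mul_assoc]

/-- The energy functional bound and its dependence on the path. -/
theorem funA (hA : AtomFactsStmt) : FunAStmt := by
  intro K A
  have F := hA K A
  obtain ⟨C₀, hC₀⟩ := F.lip
  set C := |A.rA 0| + |C₀| with hCdef
  have hC : |C₀| ≤ C := le_add_of_nonneg_left (abs_nonneg _)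
  have hC0 : 0 ≤ C := (abs_nonneg _).trans hC
  have lipR : ∀ d ∈ Icc (0 : ℝ) 1, ∀ d' ∈ Icc (0 : ℝ) 1, |A.rA d - A.rA d'| ≤ C * |d - d'| :=
    fun d hd d' hd' => (hC₀ d hd d' hd').1.trans
      (mul_le_mul_of_nonneg_right ((le_abs_self _).trans hC) (abs_nonneg _))
  have lipP : ∀ d ∈ Icc (0 : ℝ) 1, ∀ d' ∈ Icc (0 : ℝ) 1, |A.dpsi d - A.dpsi d'| ≤ C * |d - d'| :=
    fun d hd d' hd' => (hC₀ d hd d' hd').2.1.trans
      (mul_le_mul_of_nonneg_right ((le_abs_self _).trans hC) (abs_nonneg _))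
  have int1 : ∀ {f : ℝ → ℝ}, ContinuousOn f (Icc 0 1) → ∀ {r : ℕ} {m : Fin r → ℝ}
      {q : Fin (r + 1) → ℝ}, IsPath m q →
      IntervalIntegrable (fun u => f (dfun m q u)) volume 0 1 := fun hf r m q h => by
    simpa using intervalIntegrable_comp hf h (s := 1) (right_mem_Icc.2 zero_le_one)
  refine ⟨C, fun r m q q' hq hq' => ⟨?_, ?_⟩, fun ξ ξ' e he hex => ?_⟩
  · rw [Atoms.funA, abs_mul]
    have h : |∫ u in (0 : ℝ)..1, A.rA (dfun m q u)| ≤ 2 * C := by
      have hb := intervalIntegral.norm_integral_le_of_norm_le_const (a := (0 : ℝ)) (b := 1)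
        (f := fun u => A.rA (dfun m q u)) (C := 2 * C) fun u hu => ?_
      · simpa using hb
      · rw [uIoc_of_le zero_le_one] at hu
        have hD := dfun_mem hq ⟨hu.1.le, hu.2⟩
        have h1 := lipR _ hD 0 (left_mem_Icc.2 zero_le_one)
        rw [sub_zero, abs_of_nonneg hD.1] at h1
        rw [Real.norm_eq_abs]
        have h2 := abs_sub_abs_le_abs_sub (A.rA (dfun m q u)) (A.rA 0)
        nlinarith [hD.2, hCdef, abs_nonneg C₀]
    rw [abs_of_pos (by norm_num : (0 : ℝ) < 1 / 2)]
    linarith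
  · rw [Atoms.funA, Atoms.funA, ← mul_sub, ← intervalIntegral.integral_sub
      (int1 (continuousOn_of_lip lipR) hq) (int1 (continuousOn_of_lip lipR) hq'), abs_mul,
      abs_of_pos (by norm_num : (0 : ℝ) < 1 / 2)]
    have hb := intervalIntegral.norm_integral_le_of_norm_le_const (a := (0 : ℝ)) (b := 1)
      (f := fun u => A.rA (dfun m q u) - A.rA (dfun m q' u))
      (C := C * ∑ p, weight m p * |q p - q' p|) fun u hu => ?_
    · simp only [Real.norm_eq_abs, sub_zero, abs_one, mul_one] at hb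
      have : 0 ≤ C * ∑ p, weight m p * |q p - q' p| := (abs_nonneg _).trans hb
      linarith
    · rw [uIoc_of_le zero_le_one] at hu
      exact (lipR _ (dfun_mem hq ⟨hu.1.le, hu.2⟩) _ (dfun_mem hq' ⟨hu.1.le, hu.2⟩)).trans
        (mul_le_mul_of_nonneg_left (abs_dfun_sub_le hq u) hC0)
  · have hi := int1 (continuousOn_of_lip lipP) ξ.isPath
    calc ∫ u in (0 : ℝ)..1, A.dpsi (dfun ξ'.m ξ'.q u)
        ≤ ∫ u in (0 : ℝ)..1, (A.dpsi (dfun ξ.m ξ.q u) + C * e) := by
          refine intervalIntegral.integral_mono_on zero_le_one (int1 (continuousOn_of_lip lipP) ξ'.isPath)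
            (hi.add intervalIntegrable_const) fun u hu => ?_
          have hD := dfun_mem ξ.isPath hu
          have hD' := dfun_mem ξ'.isPath hu
          rcases le_total (dfun ξ'.m ξ'.q u) (dfun ξ.m ξ.q u) with hle | hle
          · exact le_add_of_le_of_nonneg (F.dpsi_mono hD'.1 hD.1 hle) (mul_nonneg hC0 he)
          · have h1 := (le_abs_self _).trans (lipP _ hD' _ hD)
            rw [abs_of_nonneg (sub_nonneg.2 hle)] at h1
            have h2 : dfun ξ'.m ξ'.q u - dfun ξ.m ξ.q u ≤ e := by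
              rw [dfun_eq_excess, dfun_eq_excess]; linarith [hex u hu]
            nlinarith
      _ = _ := by
          rw [intervalIntegral.integral_add hi intervalIntegrable_const,
            intervalIntegral.integral_const, sub_zero, one_smul]

/-- One step in the factor multiplying the atoms. -/
theorem funTime (hA : AtomFactsStmt) : FunTimeStmt := by
  intro K A
  have F := hA K A
  obtain ⟨C₀, hC₀⟩ := F.lip
  set C := |C₀|
  have lipR : ∀ d ∈ Icc (0 : ℝ) 1, ∀ d' ∈ Icc (0 : ℝ) 1, |A.rA d - A.rA d'| ≤ C₀ * |d - d'| :=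
    fun d hd d' hd' => (hC₀ d hd d' hd').1
  have lipP : ∀ d ∈ Icc (0 : ℝ) 1, ∀ d' ∈ Icc (0 : ℝ) 1, |A.dpsi d - A.dpsi d'| ≤ C * |d - d'| :=
    fun d hd d' hd' => (hC₀ d hd d' hd').2.1.trans
      (mul_le_mul_of_nonneg_right (le_abs_self _) (abs_nonneg _))
  refine ⟨C, fun r m q h t t' ht' ht htt' ht1 => ⟨?_, ?_, ?_⟩⟩
  · have hts : t ∈ Icc (0 : ℝ) 1 := ⟨ht, htt'.trans ht1⟩
    have hts' : t' ∈ Icc (0 : ℝ) 1 := ⟨ht'.le, ht1⟩
    have i1 := intervalIntegrable_comp (continuousOn_of_lip lipP) h hts'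
    have i2 := intervalIntegrable_comp (continuousOn_of_lip lipR) h hts'
    have i3 := intervalIntegrable_comp (continuousOn_of_lip lipR) h hts
    have hle : ∫ u in (0 : ℝ)..1, (t' - t) * A.dpsi (t' * dfun m q u) ≤
        ∫ u in (0 : ℝ)..1, (t' * A.rA (t' * dfun m q u) - t * A.rA (t * dfun m q u) +
          C * (t' - t) ^ 2) := by
      refine intervalIntegral.integral_mono_on zero_le_one (i1.const_mul _)
        (((i2.const_mul _).sub (i3.const_mul _)).add intervalIntegrable_const) fun u hu => ?_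
      obtain ⟨hD0, hD1⟩ := dfun_mem h hu
      set D := dfun m q u
      have hCsq : 0 ≤ C * (t' - t) ^ 2 := mul_nonneg (abs_nonneg _) (sq_nonneg _)
      rcases eq_or_lt_of_le hD0 with hD | hD
      · rw [← hD, mul_zero, mul_zero, rA_zero_eq F]; linarith
      rcases eq_or_lt_of_le htt' with rfl | hlt
      · simp
      have hmem : ∀ s ∈ Icc t t', s * D ∈ Icc (0 : ℝ) 1 := fun s hs =>
        unitInterval.mul_mem ⟨ht.trans hs.1, hs.2.trans ht1⟩ ⟨hD0, hD1⟩
      have hab : t * D < t' * D := mul_lt_mul_of_pos_right hlt hD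
      have hsub : Icc (t * D) (t' * D) ⊆ Icc 0 1 := Icc_subset_Icc
        (hmem t ⟨le_rfl, htt'⟩).1 (hmem t' ⟨htt', le_rfl⟩).2
      obtain ⟨ξ, hξ, e⟩ := exists_hasDerivAt_eq_slope (fun s => s * A.rA s) A.dpsi hab
        ((continuousOn_id.mul (continuousOn_of_lip lipR)).mono hsub)
        fun s hs => F.deriv_psi s (lt_of_le_of_lt (hmem t ⟨le_rfl, htt'⟩).1 hs.1)
      have hξ0 : (0 : ℝ) ≤ t * D := (hmem t ⟨le_rfl, htt'⟩).1
      have m1 := F.dpsi_mono (mem_Ici.2 hξ0) (mem_Ici.2 (hξ0.trans hξ.1.le)) hξ.1.le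
      have h2 := (le_abs_self _).trans
        (lipP _ (hmem t' ⟨htt', le_rfl⟩) _ (hmem t ⟨le_rfl, htt'⟩))
      rw [abs_of_pos (sub_pos.2 hab)] at h2
      rw [eq_div_iff (sub_pos.2 hab).ne'] at e
      have e' : A.dpsi ξ * (t' - t) = t' * A.rA (t' * D) - t * A.rA (t * D) :=
        mul_right_cancel₀ hD.ne' (by linarith)
      have h3 : C * (t' * D - t * D) ≤ C * (t' - t) :=
        mul_le_mul_of_nonneg_left (by nlinarith) (abs_nonneg _)
      nlinarith [mul_le_mul_of_nonneg_left m1 (sub_nonneg.2 htt')]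
    rw [intervalIntegral.integral_const_mul, intervalIntegral.integral_add
      ((i2.const_mul _).sub (i3.const_mul _)) intervalIntegrable_const,
      intervalIntegral.integral_sub (i2.const_mul _) (i3.const_mul _),
      intervalIntegral.integral_const_mul, intervalIntegral.integral_const_mul,
      intervalIntegral.integral_const, sub_zero, one_smul] at hle
    nlinarith [mul_nonneg (abs_nonneg C₀) (sq_nonneg (t' - t))]
  · have G := hA K (A.scale t' ht')
    rw [Atoms.funA, intervalIntegral.integral_congr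
      (g := fun u => t' * A.rA (t' * dfun m q u)) fun u hu => ?_,
      intervalIntegral.integral_const_mul]
    · ring
    · rw [uIcc_of_le zero_le_one] at hu
      exact rA_scale F ht' G (dfun_mem h hu).1
  · have G := hA K (A.scale t' ht')
    set f : ℝ → ℝ := fun d => d * A.rA (t' * d)
    set f1 : ℝ → ℝ := fun d => A.dpsi (t' * d)
    have hmul : MapsTo (fun d => t' * d) (Icc (0 : ℝ) 1) (Icc 0 1) := fun d hd =>
      unitInterval.mul_mem ⟨ht'.le, ht1⟩ hd
    have hdv : ∀ d ∈ Ioc (0 : ℝ) 1, HasDerivAt f (f1 d) d := by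
      intro d hd
      have := ((F.deriv_psi (t' * d) (mul_pos ht' hd.1)).comp d
        ((hasDerivAt_id' d).const_mul t')).div_const t'
      refine (this.congr_deriv ?_).congr_of_eventuallyEq (Filter.Eventually.of_forall fun x => ?_)
      · simp only [f1]; field_simp
      · simp only [f, Function.comp_apply]; field_simp
    have hs := calc'_s h (f := f) (f1 := f1)
      (continuousOn_id.mul ((continuousOn_of_lip lipR).comp (by fun_prop) hmul) :
        ContinuousOn f (Icc 0 1))
      ((continuousOn_of_lip lipP).comp (by fun_prop) hmul : ContinuousOn f1 (Icc 0 1)) hdv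
    have hb : ∀ d, 0 ≤ d → ∑ k, A.a k * (A.scale t' ht').blockOf k d = f d := by
      intro d hd
      have h1 : ∀ k, (A.scale t' ht').blockOf k d = A.blockOf k (t' * d) / t' := fun k => by
        rw [Atoms.blockOf, topOf_scale F ht' G hd, share_scale, mul_div_cancel₀ _ ht'.ne',
          Atoms.blockOf, div_mul_eq_mul_div]
      simp only [h1, ← mul_div_assoc, ← Finset.sum_div, sum_a_blockOf F (by positivity : 0 ≤ t' * d),
        f]
      field_simp
    have hb1 : ∀ d, 0 ≤ d → ∑ k, A.a k * (A.scale t' ht').dblockOf k d = f1 d := by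
      intro d hd
      simp only [f1, Atoms.dpsi, Atoms.dblockOf, dshare_scale, topOf_scale F ht' G hd,
        mul_div_cancel₀ _ ht'.ne']
    have heig : ∀ p, 0 ≤ El.eig m (El.ofPath q) p := fun p => by
      rw [eig_ofPath h.mono]
      exact (dfun_mem h ⟨nonneg_of h p, le_one_of h p⟩).1
    rw [show f 0 = 0 by simp [f], zero_add] at hs
    rw [← hs]
    simp only [Atoms.blockEl, El.calc', mul_add, Finset.mul_sum, Finset.sum_add_distrib]
    congr 1
    · congr 1
      · exact hb _ (heig _)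
      · rw [Finset.sum_comm]
        refine Finset.sum_congr rfl fun i _ => ?_
        simp only [← mul_div_assoc, ← Finset.sum_div, mul_sub, Finset.sum_sub_distrib,
          hb _ (heig _)]
    · simp only [← mul_assoc, ← Finset.sum_mul, hb1 _ (heig _)]

end Vale.Agent.P166.Haar2.Paths
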