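import Vale.Agent.P166.Haar2.Statements

/-!
The function `dfun` of an overlap path: the link with `excess`, its size, and the integral form of
the diagonal value of the calculus at a path.
-/

noncomputable section

open MeasureTheory Set
open scoped BigOperators

namespace Vale.Agent.P166.Haar2.Paths

open Vale.Agent.P157.Parisi (IsPath weight)
open Vale.Agent.P157.Parisi.Full (excess)

variable {r : ℕ} {m : Fin r → ℝ} {q : Fin (r + 1) → ℝ}

lemma sum_weight_abel (m : Fin r → ℝ) (c : Fin (r + 1) → ℝ) :
    ∑ p, weight m p * c p = c (Fin.last r) - ∑ i, m i * (c i.succ - c i.castSucc) := by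
  simp only [weight, sub_mul, Finset.sum_sub_distrib, mul_sub]
  rw [Fin.sum_univ_castSucc fun p => (Fin.snoc m 1 : Fin (r + 1) → ℝ) p * c p,
    Fin.sum_univ_succ fun p => (Fin.cons 0 m : Fin (r + 1) → ℝ) p * c p]
  simp only [Fin.snoc_castSucc, Fin.snoc_last, Fin.cons_zero, Fin.cons_succ]
  ring

lemma sum_weight_one' (m : Fin r → ℝ) : ∑ p, weight m p = 1 := by
  simpa using sum_weight_abel m fun _ => 1

lemma weight_nonneg' (h : IsPath m q) (p : Fin (r + 1)) : 0 ≤ weight m p := by
  rw [weight, sub_nonneg]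
  induction p using Fin.cases with
  | zero =>
    rw [Fin.cons_zero]
    rcases Fin.eq_castSucc_or_eq_last (0 : Fin (r + 1)) with ⟨j, hj⟩ | hj <;> rw [hj]
    · rw [Fin.snoc_castSucc]; exact (h.pos j).le
    · rw [Fin.snoc_last]; exact zero_le_one
  | succ i =>
    rw [Fin.cons_succ]
    rcases Fin.eq_castSucc_or_eq_last i.succ with ⟨j, hj⟩ | hj <;> rw [hj]
    · rw [Fin.snoc_castSucc]
      refine h.strictMono.monotone (Fin.le_def.2 ?_)
      have := congrArg Fin.val hj
      simp only [Fin.val_succ, Fin.val_castSucc] at this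
      omega
    · rw [Fin.snoc_last]; exact (h.lt_one i).le

lemma sum_weight_le (m : Fin r → ℝ) (p : Fin (r + 1)) :
    (∑ l, if l ≤ p then weight m l else 0) = El.upMass m p := by
  have h := sum_weight_abel m fun l => if l ≤ p then 1 else 0
  simp only [mul_ite, mul_one, mul_zero] at h
  rw [h, El.upMass]
  induction p using Fin.lastCases with
  | last => simp [Fin.le_last]
  | cast j =>
    rw [Fin.snoc_castSucc, if_neg (not_le.2 (Fin.castSucc_lt_last j)),
      Finset.sum_eq_single j]
    · rw [if_neg (not_le.2 (Fin.castSucc_lt_succ (i := j))), if_pos le_rfl]; ring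
    · intro i _ hij
      have : (i.succ ≤ j.castSucc) ↔ (i.castSucc ≤ j.castSucc) := by
        rw [Fin.le_def, Fin.le_def]
        have := Fin.val_ne_of_ne hij
        simp only [Fin.val_succ, Fin.val_castSucc]
        omega
      simp only [this, sub_self, mul_zero]
    · exact fun h' => absurd (Finset.mem_univ j) h'

lemma dfun_eq (m : Fin r → ℝ) (q : Fin (r + 1) → ℝ) (u : ℝ) :
    dfun m q u = 1 - ∑ p, weight m p * max u (q p) := by
  rw [sum_weight_abel, dfun]; ring

lemma dfun_eq_excess (m : Fin r → ℝ) (q : Fin (r + 1) → ℝ) (u : ℝ) :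
    dfun m q u = 1 - u - excess m q u := by
  have : ∀ p, max (q p - u) 0 = max u (q p) - u := fun p => by
    rw [← max_sub_sub_right, sub_self, max_comm]
  simp only [dfun_eq, excess, this, mul_sub, Finset.sum_sub_distrib, ← Finset.sum_mul,
    sum_weight_one', one_mul]
  ring

lemma continuous_dfun (m : Fin r → ℝ) (q : Fin (r + 1) → ℝ) : Continuous (dfun m q) := by
  unfold dfun; fun_prop

lemma le_one_of (h : IsPath m q) (p : Fin (r + 1)) : q p ≤ 1 :=
  (h.mono (Fin.le_last p)).trans h.le_one

lemma nonneg_of (h : IsPath m q) (p : Fin (r + 1)) : 0 ≤ q p :=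
  h.nonneg.trans (h.mono (Fin.zero_le p))

lemma dfun_mem (h : IsPath m q) {u : ℝ} (hu : u ∈ Icc (0 : ℝ) 1) :
    dfun m q u ∈ Icc (0 : ℝ) 1 := by
  rw [dfun_eq]
  have h0 : 0 ≤ ∑ p, weight m p * max u (q p) :=
    Finset.sum_nonneg fun p _ => mul_nonneg (weight_nonneg' h p) (le_max_of_le_left hu.1)
  have h1 : ∑ p, weight m p * max u (q p) ≤ ∑ p, weight m p * 1 :=
    Finset.sum_le_sum fun p _ =>
      mul_le_mul_of_nonneg_left (max_le hu.2 (le_one_of h p)) (weight_nonneg' h p)
  simp only [mul_one, sum_weight_one'] at h1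
  exact ⟨by linarith, by linarith⟩

lemma abs_dfun_sub_le {q' : Fin (r + 1) → ℝ} (h : IsPath m q) (u : ℝ) :
    |dfun m q u - dfun m q' u| ≤ ∑ p, weight m p * |q p - q' p| := by
  rw [dfun_eq, dfun_eq, show ∀ a b : ℝ, 1 - a - (1 - b) = b - a from fun a b => by ring,
    ← Finset.sum_sub_distrib]
  refine (Finset.abs_sum_le_sum_abs _ _).trans (Finset.sum_le_sum fun p _ => ?_)
  rw [← mul_sub, abs_mul, abs_of_nonneg (weight_nonneg' h p), abs_sub_comm]
  refine mul_le_mul_of_nonneg_left ?_ (weight_nonneg' h p)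
  exact (abs_max_sub_max_le_max _ _ _ _).trans (by simp)

lemma eig_ofPath (hq : Monotone q) (p : Fin (r + 1)) :
    El.eig m (El.ofPath q) p = dfun m q (q p) := by
  rw [dfun_eq, El.eig, El.ofPath, ← sum_weight_le, Finset.sum_mul, sub_sub,
    ← Finset.sum_add_distrib]
  congr 1
  refine Finset.sum_congr rfl fun l _ => ?_
  rcases le_or_gt l p with hl | hl
  · rw [if_neg (not_lt.2 hl), if_pos hl, max_eq_left (hq hl), zero_add]
  · rw [if_pos hl, if_neg (not_le.2 hl), max_eq_right (hq hl.le), zero_mul, add_zero]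

lemma sum_succ_sub : ∀ {n : ℕ} (c : Fin (n + 1) → ℝ),
    ∑ i : Fin n, (c i.succ - c i.castSucc) = c (Fin.last n) - c 0
  | 0, c => by simp
  | n + 1, c => by
    rw [Fin.sum_univ_castSucc]
    have h := sum_succ_sub (n := n) fun i => c i.castSucc
    simp only [Fin.castSucc_zero] at h
    simp only [Fin.succ_castSucc, h, Fin.succ_last]
    ring

/-- The diagonal value of the calculus at an overlap path. -/
lemma calc'_s (h : IsPath m q) {f f1 : ℝ → ℝ} (hf : ContinuousOn f (Icc 0 1))
    (hf1 : ContinuousOn f1 (Icc 0 1)) (hd : ∀ d ∈ Ioc (0 : ℝ) 1, HasDerivAt f (f1 d) d) :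
    (El.calc' m f f1 (El.ofPath q)).s = f 0 + ∫ u in (0 : ℝ)..1, f1 (dfun m q u) := by
  have hc : ContinuousOn (fun u => f1 (dfun m q u)) (Icc 0 1) :=
    hf1.comp (continuous_dfun m q).continuousOn fun u hu => dfun_mem h hu
  have hfD : ContinuousOn (fun u => f (dfun m q u)) (Icc 0 1) :=
    hf.comp (continuous_dfun m q).continuousOn fun u hu => dfun_mem h hu
  have hint : ∀ a b, 0 ≤ a → a ≤ b → b ≤ 1 →
      IntervalIntegrable (fun u => f1 (dfun m q u)) volume a b := fun a b ha hab hb =>
    (hc.mono (Icc_subset_Icc ha hb)).intervalIntegrable_of_Icc hab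
  set Φ : ℝ → ℝ := fun x => ∫ u in (0 : ℝ)..x, f1 (dfun m q u)
  have hΦ : ∀ a b, 0 ≤ a → a ≤ b → b ≤ 1 → ∫ u in a..b, f1 (dfun m q u) = Φ b - Φ a :=
    fun a b ha hab hb => (intervalIntegral.integral_interval_sub_left
      (hint 0 b le_rfl (ha.trans hab) hb) (hint 0 a le_rfl ha (hab.trans hb))).symm
  -- the first interval
  have h0 : Φ (q 0) = f1 (dfun m q (q 0)) * q 0 := by
    have : ∀ u ∈ uIcc (0 : ℝ) (q 0), f1 (dfun m q u) = f1 (dfun m q (q 0)) := fun u hu => by
      rw [uIcc_of_le h.nonneg] at hu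
      congr 1
      rw [dfun_eq, dfun_eq]
      congr 1
      refine Finset.sum_congr rfl fun p _ => ?_
      rw [max_eq_right (hu.2.trans (h.mono (Fin.zero_le p))),
        max_eq_right (h.mono (Fin.zero_le p))]
    simp only [Φ, intervalIntegral.integral_congr this, intervalIntegral.integral_const, sub_zero,
      smul_eq_mul, mul_comm]
  -- the inner intervals
  have hi : ∀ i : Fin r, Φ (q i.succ) - Φ (q i.castSucc) =
      (f (dfun m q (q i.castSucc)) - f (dfun m q (q i.succ))) / m i := by
    intro i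
    have hab : q i.castSucc ≤ q i.succ := h.mono (Fin.castSucc_lt_succ (i := i)).le
    have ha := nonneg_of h i.castSucc
    have hb := le_one_of h i.succ
    have hD : ∀ u ∈ Icc (q i.castSucc) (q i.succ),
        dfun m q u = dfun m q (q i.succ) + m i * (q i.succ - u) := by
      intro u hu
      have hlast : q i.succ ≤ q (Fin.last r) := h.mono (Fin.le_last _)
      simp only [dfun, max_eq_right (hu.2.trans hlast), max_eq_right hlast]
      rw [add_assoc]
      congr 1
      rw [← Finset.add_sum_erase _ _ (Finset.mem_univ i), ← Finset.add_sum_erase _ _ (Finset.mem_univ i)]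
      rw [max_eq_right hu.2, max_eq_left hu.1, max_eq_left hab, max_self]
      have : ∀ j ∈ Finset.univ.erase i, m j * (max u (q j.succ) - max u (q j.castSucc)) =
          m j * (max (q i.succ) (q j.succ) - max (q i.succ) (q j.castSucc)) := by
        intro j hj
        rcases lt_or_gt_of_ne (Finset.ne_of_mem_erase hj) with hji | hji
        · have e1 : q j.succ ≤ q i.castSucc := h.mono (Fin.le_def.2 (by
            simp only [Fin.val_succ, Fin.val_castSucc]; exact hji))
          have e2 : q j.castSucc ≤ q j.succ := h.mono (Fin.castSucc_lt_succ (i := j)).le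
          rw [max_eq_left (e1.trans hu.1), max_eq_left ((e2.trans e1).trans hu.1),
            max_eq_left (e1.trans hab), max_eq_left ((e2.trans e1).trans hab), sub_self, sub_self]
        · have e1 : q i.succ ≤ q j.castSucc := h.mono (Fin.le_def.2 (by
            simp only [Fin.val_succ, Fin.val_castSucc]; exact hji))
          have e2 : q j.castSucc ≤ q j.succ := h.mono (Fin.castSucc_lt_succ (i := j)).le
          rw [max_eq_right ((hu.2.trans e1).trans e2), max_eq_right (hu.2.trans e1),
            max_eq_right (e1.trans e2), max_eq_right e1]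
      rw [Finset.sum_congr rfl this]
      ring
    have hmi := h.pos i
    rw [← hΦ _ _ ha hab hb]
    have key := intervalIntegral.integral_eq_sub_of_hasDerivAt_of_le hab
      (f := fun u => -(f (dfun m q u)) / m i) (f' := fun u => f1 (dfun m q u))
      (((hfD.mono (Icc_subset_Icc ha hb)).neg).div_const _) ?_ (hint _ _ ha hab hb)
    · rw [key]; ring
    · intro u hu
      have hu01 : u ∈ Icc (0 : ℝ) 1 := ⟨ha.trans hu.1.le, hu.2.le.trans hb⟩
      have hpos : 0 < dfun m q u := by
        rw [hD u ⟨hu.1.le, hu.2.le⟩]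
        have := (dfun_mem h (u := q i.succ) ⟨ha.trans hab, hb⟩).1
        nlinarith [hu.2]
      have hlin : HasDerivAt (dfun m q) (-(m i)) u := by
        refine HasDerivAt.congr_of_eventuallyEq ?_ (Filter.eventually_of_mem
          (Ioo_mem_nhds hu.1 hu.2) fun v hv => hD v ⟨hv.1.le, hv.2.le⟩)
        simpa using (((hasDerivAt_id' u).const_sub (q i.succ)).const_mul (m i)).const_add
          (dfun m q (q i.succ))
      refine ((((hd _ ⟨hpos, (dfun_mem h hu01).2⟩).comp u hlin).neg).div_const (m i)).congr_deriv ?_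
      field_simp
  -- the last interval
  have hl : Φ 1 - Φ (q (Fin.last r)) = f (dfun m q (q (Fin.last r))) - f 0 := by
    set a := q (Fin.last r)
    have ha : 0 ≤ a := nonneg_of h _
    have hD : ∀ u, a ≤ u → dfun m q u = 1 - u := fun u hu => by
      rw [dfun_eq]
      have : ∀ p, max u (q p) = u := fun p => max_eq_left ((h.mono (Fin.le_last p)).trans hu)
      simp only [this, ← Finset.sum_mul, sum_weight_one', one_mul]
    rw [← hΦ _ _ ha h.le_one le_rfl]
    have key := intervalIntegral.integral_eq_sub_of_hasDerivAt_of_le h.le_one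
      (f := fun u => -(f (dfun m q u))) (f' := fun u => f1 (dfun m q u))
      ((hfD.mono (Icc_subset_Icc ha le_rfl)).neg) ?_ (hint _ _ ha h.le_one le_rfl)
    · rw [key, hD 1 h.le_one, sub_self]; ring
    · intro u hu
      have hlin : HasDerivAt (dfun m q) (-1) u := by
        refine HasDerivAt.congr_of_eventuallyEq ?_ (Filter.eventually_of_mem
          (Ioo_mem_nhds hu.1 hu.2) fun v hv => hD v hv.1.le)
        simpa using (hasDerivAt_id' u).const_sub 1
      refine (((hd _ ?_).comp u hlin).neg).congr_deriv (by ring)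
      rw [hD u hu.1.le]
      exact ⟨by linarith [hu.2], by linarith [hu.1]⟩
  have hsum : Φ (q (Fin.last r)) - Φ (q 0) =
      ∑ i : Fin r, (f (dfun m q (q i.castSucc)) - f (dfun m q (q i.succ))) / m i := by
    rw [← sum_succ_sub fun p => Φ (q p)]
    exact Finset.sum_congr rfl fun i _ => hi i
  simp only [El.calc', eig_ofPath h.mono]
  rw [show (El.ofPath q).v 0 = q 0 from rfl, ← hsum, ← h0,
    show (∫ u in (0 : ℝ)..1, f1 (dfun m q u)) = Φ 1 from rfl]
  linarith

end Vale.Agent.P166.Haar2.Paths
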